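import Mathlib.Combinatorics.Matroid.Minor.Contract
import Mathlib.Combinatorics.Matroid.Circuit

/-!
# P068: the two conjectured properties, bounded distance of matroids, finite connectivity
-/

namespace Vale.Agent.N068B

open Matroid

/-- A packing/covering partition `E = P ∪ C` of the family `M`: pairwise disjoint `S i ⊆ P` with
closure `P` in `M i ↾ P`, and `I i ⊆ C` with union `C`, independent in the contraction
`((M i)✶ ↾ C)✶` of `M i` onto `C`. -/
def HasPartition {α ι : Type*} (E : Set α) (M : ι → Matroid α) : Prop :=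
  ∃ (P C : Set α) (S I : ι → Set α), P ∪ C = E ∧ Disjoint P C ∧
    (∀ i, S i ⊆ P ∧ (M i ↾ P).closure (S i) = P) ∧ Pairwise (fun i j => Disjoint (S i) (S j)) ∧
    (∀ i, I i ⊆ C ∧ ((M i)✶ ↾ C)✶.Indep (I i)) ∧ ⋃ i, I i = C

/-- The pair `(M, N)` satisfies intersection: a common independent set `J` has a partition
`J = JM ∪ JN` such that the closure of `JM` in `M` and the closure of `JN` in `N` cover the
ground set. -/
def Intersection {α : Type*} (M N : Matroid α) : Prop :=
  ∃ J JM JN : Set α, M.Indep J ∧ N.Indep J ∧ JM ∪ JN = J ∧ Disjoint JM JN ∧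
    M.closure JM ∪ N.closure JN = M.E

/-- Every independent set of one of the two matroids becomes independent in the other one after
the removal of at most `c` elements. -/
def Near {α : Type*} (c : ℕ) (M M' : Matroid α) : Prop :=
  (∀ I, M.Indep I → ∃ F : Set α, F.encard ≤ c ∧ M'.Indep (I \ F)) ∧
  (∀ I, M'.Indep I → ∃ F : Set α, F.encard ≤ c ∧ M.Indep (I \ F))

/-- `(X, E \ X)` is an `l`-separation: both sides have at least `l` elements, and the union of a
basis of `X` and a basis of `E \ X` becomes independent after the removal of fewer than `l`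
elements. -/
def Separation {α : Type*} (M : Matroid α) (l : ℕ) (X : Set α) : Prop :=
  X ⊆ M.E ∧ (l : ℕ∞) ≤ X.encard ∧ (l : ℕ∞) ≤ (M.E \ X).encard ∧
    ∃ B B' F : Set α, M.IsBasis B X ∧ M.IsBasis B' (M.E \ X) ∧ F.encard < l ∧
      M.Indep ((B ∪ B') \ F)

/-- `M` is `k`-connected (no `l`-separation with `l < k`), and all its circuits and cocircuits are
infinite. -/
def Tight {α : Type*} (M : Matroid α) (k : ℕ) : Prop :=
  (∀ l < k, ∀ X, ¬ Separation M l X) ∧ ∀ C, M.IsCircuit C ∨ M.IsCocircuit C → C.Infinite

end Vale.Agent.N068B
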