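import Vale.Agent.N068B.Trunc

/-!
# P068: intersection is invariant under bounded perturbations
-/

namespace Vale.Agent.N068B

open Set Matroid

variable {α : Type*} {M N M' N' : Matroid α}

lemma cyc (I J K : Set α) : (I \ J).encard + (J \ K).encard + (K \ I).encard =
    (J \ I).encard + (K \ J).encard + (I \ K).encard := by
  have key : ∀ A B C : Set α,
      (A \ B).encard = (A \ (B ∪ C)).encard + ((A ∩ C) \ B).encard := by
    intro A B C
    rw [← encard_sdiff_add_encard_inter (A \ B) C, sdiff_sdiff, inter_sdiff_right_comm]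
  rw [key I J K, key J K I, key K I J, key J I K, key K J I, key I K J, union_comm K I,
    union_comm J I, union_comm K J, inter_comm J I, inter_comm K I, inter_comm K J]
  ac_rfl

/-- `J` is a common independent set which is a largest one up to an error of at most `c` -/
def Excess (M N : Matroid α) (J : Set α) (c : ℕ) : Prop :=
  M.Indep J ∧ N.Indep J ∧ ∀ I, M.Indep I → N.Indep I → (I \ J).encard ≤ (J \ I).encard + c

lemma inter_of_splits {J : Set α} (hM : M.Indep J) (hN : N.Indep J) (h : N068.Splits M N J) :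
    Intersection M N := by
  obtain ⟨A, B, h1, h2, h3⟩ := h
  exact ⟨J, A, B, hM, hN, h2, h1, h3⟩

theorem Excess.inter (hE : M.E = N.E) (c : ℕ) : ∀ J, Excess M N J c → Intersection M N := by
  induction c with
  | zero =>
    rintro J ⟨hM, hN, h⟩
    exact inter_of_splits hM hN ((N068.splits_tfae hE hM hN).1.2 (by simpa using h))
  | succ c ih =>
    rintro J ⟨hM, hN, h⟩
    by_cases hs : N068.Splits M N J
    · exact inter_of_splits hM hN hs
    obtain ⟨K, k1, k2, k3, k4⟩ := not_not.1 (mt (N068.splits_tfae hE hM hN).2.2 hs)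
    refine ih K ⟨k1, k2, fun I i1 i2 => ?_⟩
    rcases (K \ I).finite_or_infinite with f1 | f1
    swap
    · rw [f1.encard_eq]
      exact le_top
    have f2 : (J \ I).Finite := (k3.union f1).subset fun x hx => by
      by_cases a : x ∈ K
      exacts [Or.inr ⟨a, hx.2⟩, Or.inl ⟨hx.1, a⟩]
    have e := cyc I J K
    have g := h I i1 i2
    rw [k4] at e
    have hne : (J \ I).encard + ((J \ K).encard + 1) ≠ ⊤ := by
      simp [f2.encard_lt_top.ne, k3.encard_lt_top.ne]
    refine (ENat.add_le_add_iff_left hne).1 ?_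
    rw [← e]
    calc (I \ J).encard + (J \ K).encard + (K \ I).encard
        ≤ (J \ I).encard + ((c + 1 : ℕ) : ℕ∞) + (J \ K).encard + (K \ I).encard := by gcongr
      _ = _ := by push_cast; ac_rfl

theorem Intersection.excess (h : Intersection M N) : ∃ J, Excess M N J 0 := by
  obtain ⟨J, A, B, hM, hN, h2, h1, h3⟩ := h
  exact ⟨J, hM, hN, fun I i1 i2 => by
    simpa using N068.strong_of_splits hM hN ⟨A, B, h1, h2, h3⟩ i1 i2⟩

lemma Near.symm {a : ℕ} (h : Near a M M') : Near a M' M := ⟨h.2, h.1⟩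

lemma Near.common {a b : ℕ} (h1 : Near a M M') (h2 : Near b N N') {I : Set α} (hM : M.Indep I)
    (hN : N.Indep I) :
    ∃ F : Set α, F.encard ≤ (a + b : ℕ) ∧ M'.Indep (I \ F) ∧ N'.Indep (I \ F) := by
  obtain ⟨F, hF, g1⟩ := h1.1 I hM
  obtain ⟨G, hG, g2⟩ := h2.1 I hN
  exact ⟨F ∪ G, (encard_union_le _ _).trans (by push_cast; exact add_le_add hF hG),
    g1.subset (sdiff_subset_sdiff_right subset_union_left),
    g2.subset (sdiff_subset_sdiff_right subset_union_right)⟩

theorem Intersection.near {a b : ℕ} (h : Intersection M N) (h1 : Near a M M') (h2 : Near b N N')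
    (hE : M'.E = N'.E) : Intersection M' N' := by
  obtain ⟨J, hM, hN, hJ⟩ := h.excess
  obtain ⟨F, hF, f1, f2⟩ := h1.common h2 hM hN
  refine Excess.inter hE (4 * (a + b)) (J \ F) ⟨f1, f2, fun I i1 i2 => ?_⟩
  obtain ⟨G, hG, g1, g2⟩ := h1.symm.common h2.symm i1 i2
  have e := hJ _ g1 g2
  have s1 : I \ (J \ F) ⊆ ((I \ G) \ J) ∪ F ∪ G := by
    intro x hx
    simp only [mem_sdiff, mem_union] at hx ⊢
    tauto
  have s2 : J \ (I \ G) ⊆ ((J \ F) \ I) ∪ F ∪ G := by
    intro x hx
    simp only [mem_sdiff, mem_union] at hx ⊢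
    tauto
  have u : ∀ A : Set α, (A ∪ F ∪ G).encard ≤ A.encard + (a + b : ℕ) + (a + b : ℕ) := fun A =>
    (encard_union_le _ _).trans (add_le_add ((encard_union_le _ _).trans
      (add_le_add le_rfl hF)) hG)
  calc (I \ (J \ F)).encard ≤ ((I \ G) \ J).encard + (a + b : ℕ) + (a + b : ℕ) :=
        (encard_le_encard s1).trans (u _)
    _ ≤ ((J \ F) \ I).encard + (a + b : ℕ) + (a + b : ℕ) + (a + b : ℕ) + (a + b : ℕ) := by
        gcongr
        exact (by simpa using e : _ ≤ (J \ (I \ G)).encard).trans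
          ((encard_le_encard s2).trans (u _))
    _ = _ := by push_cast; ring

theorem inter_iff_excess (hE : M.E = N.E) : Intersection M N ↔ ∃ (J : Set α) (c : ℕ),
    M.Indep J ∧ N.Indep J ∧
      ∀ I, M.Indep I → N.Indep I → (I \ J).encard ≤ (J \ I).encard + c :=
  ⟨fun h => h.excess.imp fun _ h => ⟨0, h⟩, fun ⟨J, c, h⟩ => Excess.inter hE c J h⟩

theorem inter_of_base (hE : M.E = N.E) {B F : Set α} (hB : M.IsBase B) (hF : F.Finite)
    (h : N.Indep (B \ F)) : Intersection M N := by
  obtain ⟨c, hc⟩ := hF.exists_encard_eq_coe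
  refine Excess.inter hE (c + c) (B \ F) ⟨hB.indep.sdiff _, h, fun I i1 _ => ?_⟩
  have s1 : I \ (B \ F) ⊆ (I \ B) ∪ F := by
    intro x hx
    simp only [mem_sdiff, mem_union] at hx ⊢
    tauto
  have s2 : B \ I ⊆ ((B \ F) \ I) ∪ F := by
    intro x hx
    simp only [mem_sdiff, mem_union] at hx ⊢
    tauto
  calc (I \ (B \ F)).encard ≤ (I \ B).encard + c :=
        (encard_le_encard s1).trans ((encard_union_le _ _).trans (by rw [hc]))
    _ ≤ ((B \ F) \ I).encard + c + c := by
        gcongr
        exact (sdiff_le_of_base hB i1).trans ((encard_le_encard s2).trans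
          ((encard_union_le _ _).trans (by rw [hc])))
    _ = _ := by push_cast; ring

lemma near_minor (M : Matroid α) {C D : Set α} (hC : C.Finite) (hD : D.Finite) :
    ∃ c, Near c M (M ／ C ＼ D) := by
  obtain ⟨c, hc⟩ := hC.exists_encard_eq_coe
  obtain ⟨d, hd⟩ := hD.exists_encard_eq_coe
  refine ⟨c + c + d, fun I hI => ?_, fun I hI => ⟨∅, by simp, ?_⟩⟩
  · obtain ⟨A, hA⟩ := M.exists_isBasis' C
    obtain ⟨B, hB, hAB⟩ := hA.indep.subset_isBasis_of_subset (subset_union_left (t := I))
      (union_subset hA.indep.subset_ground hI.subset_ground)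
    have h1 : (I \ B).encard ≤ c := by
      refine (N068.encard_le_of_closure hI hB.indep
        (subset_union_right.trans hB.subset_closure)).trans (hc ▸ encard_le_encard ?_)
      exact fun x hx => hA.subset ((hB.subset hx.1).resolve_right hx.2)
    refine ⟨(I \ B) ∪ C ∪ D, (encard_union_le _ _).trans ?_, ?_⟩
    · push_cast
      exact add_le_add ((encard_union_le _ _).trans (add_le_add h1 hc.le)) hd.le
    · rw [delete_indep_iff, hA.contract_indep_iff]
      refine ⟨⟨hB.indep.subset (union_subset (fun x hx => ?_) hAB), ?_⟩, ?_⟩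
      · exact by_contra fun a => hx.2 (Or.inl (Or.inl ⟨hx.1, a⟩))
      · exact Set.disjoint_left.2 fun x a hx => hx.2 (Or.inl (Or.inr a))
      · exact Set.disjoint_left.2 fun x hx a => hx.2 (Or.inr a)
  · rw [sdiff_empty]
    exact hI.of_delete.of_contract

theorem inter_minor (hE : M.E = N.E) {C D C' D' : Set α} (hf : (C ∪ D).Finite)
    (h : C ∪ D = C' ∪ D') : Intersection M N ↔ Intersection (M ／ C ＼ D) (N ／ C' ＼ D') := by
  obtain ⟨a, ha⟩ := near_minor M (hf.subset subset_union_left) (hf.subset subset_union_right)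
  rw [h] at hf
  obtain ⟨b, hb⟩ := near_minor N (hf.subset subset_union_left) (hf.subset subset_union_right)
  refine ⟨fun g => g.near ha hb ?_, fun g => g.near ha.symm hb.symm hE⟩
  rw [delete_ground, delete_ground, contract_ground, contract_ground, sdiff_sdiff, sdiff_sdiff,
    hE]
  exact congrArg _ h

end Vale.Agent.N068B
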