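import Vale.Agent.N068B.Excess
import Vale.Agent.N068.Core

/-!
# P068: highly connected counterexamples
-/

namespace Vale.Agent.N068B

open Set Matroid Vale.Agent.P068

variable {α β ι : Type*}

lemma fin_of_uniform {M : Matroid α} (hu : ∀ D, M.Indep D ∨ M.Spanning D) {R : Set α}
    (hR : M.Indep R) (hi : R.Infinite) (D : Set α) (hD : D.Finite) : M.Indep D := by
  refine (hu D).resolve_right fun hs => ?_
  obtain ⟨B, hB, hBD⟩ := hs.exists_isBase_subset
  have := hB.rankFinite_of_finite (hD.subset hBD)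
  exact hi hR.finite

lemma free_ranked {K : Matroid (ℕ ⊕ ℕ)} {big : Set ℕ → Prop} {rk : Set ℕ → Ordinal.{0}}
    (h : Ranked K big rk) : Free K := by
  have hE := h.ground
  have hi : (range (Sum.inr : ℕ → ℕ ⊕ ℕ)).Infinite := infinite_range_of_injective Sum.inr_injective
  have hu : ∀ D, K✶.Indep D ∨ K✶.Spanning D := by
    intro D
    rcases h.uniform Dᶜ with a | a
    · have b : K✶.Coindep Dᶜ := by rwa [coindep_def, dual_dual]
      have c := b.compl_spanning
      rw [dual_ground, hE, ← compl_eq_univ_sdiff, compl_compl] at c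
      exact Or.inr c
    · have c := a.compl_coindep
      rw [hE, ← compl_eq_univ_sdiff, compl_compl] at c
      exact Or.inl c
  refine ⟨hE, fin_of_uniform h.uniform (R := blk ∅ ∅) ?_ ?_, fin_of_uniform hu
    (R := K.E \ blk univ univ) ?_ ?_⟩
  · exact (h.uniform _).resolve_right fun a =>
      lt_irrefl _ (h.of_spanning ∅ ∅ a h.not_big_empty).2
  · exact hi.mono (by simp [blk])
  · exact ((h.uniform _).resolve_left fun a =>
      lt_irrefl _ (h.of_indep _ _ a h.big_univ).2).compl_coindep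
  · refine hi.mono ?_
    rintro _ ⟨n, rfl⟩
    simp [blk, hE]

lemma Free.dual {M : Matroid α} (h : Free M) : Free M✶ :=
  ⟨h.ground, h.cofin, by rw [dual_dual]; exact h.fin⟩

lemma Free.mapEquiv {M : Matroid α} (h : Free M) (e : α ≃ β) : Free (M.mapEquiv e) :=
  ⟨H476.mapEquiv_ground h.ground e, fun D hD => mapEquiv_indep_iff.2 (h.fin _ (hD.image _)),
    fun D hD => by
      rw [H476.mapEquiv_dual]
      exact mapEquiv_indep_iff.2 (h.cofin _ (hD.image _))⟩

lemma Free.sum' {M : ι → Matroid β} (h : ∀ i, Free (M i)) : Free (Matroid.sum' M) :=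
  ⟨H476.sum'_ground fun i => (h i).ground, fun D hD => sum'_indep_iff.2 fun i =>
    (h i).fin _ (hD.preimage (Prod.mk_right_injective i).injOn), fun D hD => by
      rw [H476.sum'_dual fun i => (h i).ground]
      exact sum'_indep_iff.2 fun i =>
        (h i).cofin _ (hD.preimage (Prod.mk_right_injective i).injOn)⟩

lemma inter_iff {M N : Matroid α} : Intersection M N ↔ SatisfiesIntersection M N :=
  ⟨fun ⟨_, A, B, h1, h2, h3, h4, h5⟩ => ⟨A, B, h4, h3 ▸ h1, h3 ▸ h2, h5⟩,
    fun ⟨A, B, h4, h1, h2, h5⟩ => ⟨_, A, B, h1, h2, rfl, h4, h5⟩⟩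

lemma HasPartition.old {E : Set α} {M : ι → Matroid α} (h : HasPartition E M) :
    HasPackingCovering E M := by
  obtain ⟨P, C, S, I, h1, h2, h3, h4, h5, h6⟩ := h
  exact ⟨P, C, S, I, h1, h2, fun i => (h3 i).1, fun i => (h5 i).1, fun i j a => h4 a,
    fun i => (h3 i).2, fun i => (h5 i).2, h6⟩

lemma inter_of_sum' {M N : Matroid β} (hM : M.E = univ) (hN : N.E = univ) (i : ι)
    (h : Intersection (Matroid.sum' fun _ : ι => M) (Matroid.sum' fun _ : ι => N)) :
    Intersection M N := by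
  obtain ⟨J, A, B, h1, h2, h3, h4, h5⟩ := h
  refine ⟨Prod.mk i ⁻¹' J, Prod.mk i ⁻¹' A, Prod.mk i ⁻¹' B, sum'_indep_iff.1 h1 i,
    sum'_indep_iff.1 h2 i, by rw [← preimage_union, h3], h4.preimage _, ?_⟩
  rw [hM, eq_univ_iff_forall]
  intro x
  have hx : (i, x) ∈ (Matroid.sum' fun _ : ι => M).E := by
    rw [H476.sum'_ground fun _ => hM]
    trivial
  rw [← h5] at hx
  exact hx.imp (N068.mem_closure_of_sum' fun _ => hM) (N068.mem_closure_of_sum' fun _ => hN)

theorem exists_free (α : Type*) [Infinite α] :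
    ∃ M N : Matroid α, Free M ∧ Free N ∧ ¬ Intersection M N := by
  obtain ⟨K, big, rk, hR⟩ := exists_ranked_zfc
  have hK := free_ranked hR
  have hb : ∀ m, Free (blockMat K m) := by
    intro m
    unfold blockMat
    split_ifs
    exacts [hK, hK.dual.mapEquiv _]
  have hM : Free (netM K) := Free.sum' hb
  have hN : Free (netN K) := (Free.sum' fun m => (hb m).dual).mapEquiv _
  obtain ⟨e⟩ : Nonempty (α × (ℤ × (ℕ ⊕ ℕ)) ≃ α) := by
    rw [← Cardinal.lift_mk_eq', Cardinal.mk_prod]
    simp only [Cardinal.lift_mul, Cardinal.lift_lift]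
    refine Cardinal.mul_eq_left (by simp) ?_ (by simp [Cardinal.aleph0_ne_zero])
    exact (by simp : _ ≤ Cardinal.aleph0).trans (by simp)
  refine ⟨_, _, (Free.sum' fun _ : α => hM).mapEquiv e, (Free.sum' fun _ : α => hN).mapEquiv e,
    fun h => not_intersects hR (inter_iff.1 (inter_of_sum' hM.ground hN.ground
      (Classical.arbitrary α) (inter_iff.2 (satisfiesIntersection_of_mapEquiv e
        (inter_iff.1 h)))))⟩

theorem exists_tight_pair (α : Type*) [Infinite α] (k : ℕ) : ∃ M N : Matroid α, M.E = univ ∧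
    N.E = univ ∧ Tight M k ∧ Tight N k ∧ ¬ Intersection M N := by
  obtain ⟨M, N, hM, hN, h⟩ := exists_free α
  obtain ⟨M', m1, m2, m3, -⟩ := exists_trunc hM k
  obtain ⟨N', n1, n2, n3, -⟩ := exists_trunc hN k
  exact ⟨M', N', m1.ground, n1.ground, m1.tight m2, n1.tight n2, fun g =>
    h (g.near m3.symm n3.symm (hM.ground.trans hN.ground.symm))⟩

theorem exists_tight_family (α : Type*) [Infinite α] (k : ℕ) : ∃ M : Bool → Matroid α,
    (∀ i, (M i).E = univ ∧ Tight (M i) k) ∧ ¬ HasPartition univ M := by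
  obtain ⟨M, N, hM, hN, h⟩ := exists_free α
  obtain ⟨M', m1, m2, m3, -⟩ := exists_trunc hM k
  obtain ⟨N', n1, n2, -, n3⟩ := exists_trunc hN.dual k
  rw [dual_dual] at n3
  refine ⟨fun b => if b then M' else N', ?_, fun g => h ?_⟩
  · rintro (_ | _)
    exacts [⟨n1.ground, n1.tight n2⟩, ⟨m1.ground, m1.tight m2⟩]
  · refine (inter_iff.2 (satisfiesIntersection_of_packingCovering M' N'✶
      (m1.ground.trans n1.ground.symm) ?_)).near m3.symm n3.symm (hM.ground.trans hN.ground.symm)
    rw [dual_dual, m1.ground]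
    exact g.old

end Vale.Agent.N068B
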