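import Vale.Agent.N068B.Defs
import Vale.Agent.N068.Aug

/-!
# P068: truncation by one raises the connectivity
-/

namespace Vale.Agent.N068B

open Set Matroid

variable {α : Type*} {M : Matroid α} {I B X : Set α}

/-- independent sets which are not bases -/
def TI (M : Matroid α) (I : Set α) : Prop := M.Indep I ∧ ¬ M.IsBase I

lemma TI.subset {J : Set α} (hJ : TI M J) (h : I ⊆ J) : TI M I :=
  ⟨hJ.1.subset h, fun hb => hJ.2 (hb.eq_of_subset_indep hJ.1 h ▸ hb)⟩

lemma TI.not_base {z e : α} (h : TI M (insert z I)) (hz : z ∉ I) :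
    ¬ M.IsBase (insert e I) := by
  intro hb
  obtain ⟨x, ⟨hx1, hx2⟩, hx⟩ := h.1.exists_insert_of_not_isBase h.2 hb
  have hxe : x = e := hx1.resolve_right fun a => hx2 (Or.inr a)
  subst hxe
  have h1 := hb.eq_of_subset_indep hx (insert_subset_insert (subset_insert _ _))
  have h2 : z ∈ insert x I := h1 ▸ Or.inr (Or.inl rfl)
  exact h2.elim (fun a => hx2 (Or.inl a.symm)) hz

lemma max_TI : Maximal (TI M) B ↔ ∃ e, e ∉ B ∧ M.IsBase (insert e B) := by
  constructor
  · intro h
    obtain ⟨B0, hB0, -⟩ := h.1.1.exists_isBase_superset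
    obtain ⟨e, he, hi⟩ := h.1.1.exists_insert_of_not_isBase h.1.2 hB0
    refine ⟨e, he.2, by_contra fun hn => he.2 (h.2 ⟨hi, hn⟩ (subset_insert _ _) (Or.inl rfl))⟩
  · rintro ⟨e, he, hb⟩
    refine ⟨⟨hb.indep.subset (subset_insert _ _), fun h => he ?_⟩, fun J hJ hBJ z hz => ?_⟩
    · rw [h.eq_of_subset_indep hb.indep (subset_insert _ _)]
      exact Or.inl rfl
    · by_contra hzB
      exact (hJ.subset (insert_subset hz hBJ)).not_base hzB hb

/-- the truncation by one -/
def trunc (M : Matroid α) (h0 : ¬ M.IsBase ∅) : Matroid α :=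
  IndepMatroid.matroid
  { E := M.E
    Indep := TI M
    indep_empty := ⟨M.empty_indep, h0⟩
    indep_subset := fun _ _ hJ h => hJ.subset h
    indep_aug := fun I B hI hn hB => by
      obtain ⟨e, he, hb⟩ := max_TI.1 hB
      have hno : ∀ x, x ∉ I → ¬ M.IsBase (insert x I) := fun x hx a => hn (max_TI.2 ⟨x, hx, a⟩)
      by_contra hc
      have hcl : B ⊆ M.closure I := by
        intro x hx
        by_contra hxc
        have hxI : x ∉ I := fun a => hxc (M.subset_closure I hI.1.subset_ground a)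
        exact hc ⟨x, ⟨hx, hxI⟩, (hI.1.insert_indep_iff_of_notMem hxI).2
          ⟨hb.subset_ground (Or.inr hx), hxc⟩, hno x hxI⟩
      by_cases hec : e ∈ M.closure I
      · exact hI.2 (hI.1.isBase_of_ground_subset_closure
          (hb.closure_eq ▸ M.closure_subset_closure_of_subset_closure (insert_subset hec hcl)))
      · have heI : e ∉ I := fun a => hec (M.subset_closure I hI.1.subset_ground a)
        have hi := (hI.1.insert_indep_iff_of_notMem heI).2 ⟨hb.subset_ground (Or.inl rfl), hec⟩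
        refine hno e heI (hi.isBase_of_ground_subset_closure
          (hb.closure_eq ▸ M.closure_subset_closure_of_subset_closure (insert_subset ?_ ?_)))
        · exact M.subset_closure _ hi.subset_ground (Or.inl rfl)
        · exact hcl.trans (M.closure_subset_closure (subset_insert _ _))
    indep_maximal := fun X hX I hI hIX => by
      obtain ⟨J, hJ, hIJ⟩ := hI.1.subset_isBasis_of_subset hIX hX
      by_cases hb : M.IsBase J
      · obtain ⟨e, he, heI⟩ := exists_of_ssubset (hIJ.ssubset_of_ne fun a => hI.2 (a ▸ hb))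
        have hm : Maximal (TI M) (J \ {e}) :=
          max_TI.2 ⟨e, fun a => a.2 rfl, by rwa [insert_sdiff_singleton, insert_eq_of_mem he]⟩
        exact ⟨J \ {e}, subset_sdiff_singleton hIJ heI,
          ⟨hm.1, sdiff_subset.trans hJ.subset⟩, fun K hK h => hm.2 hK.1 h⟩
      · exact ⟨J, hIJ, ⟨⟨hJ.indep, hb⟩, hJ.subset⟩, fun K hK h =>
          (hJ.eq_of_subset_indep hK.1.1 h hK.2).symm.subset⟩
    subset_ground := fun _ h => h.1.subset_ground }

variable {h0 : ¬ M.IsBase ∅}

lemma trunc_indep : (trunc M h0).Indep I ↔ TI M I := Iff.rfl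

lemma trunc_base : (trunc M h0).IsBase B ↔ ∃ e, e ∉ B ∧ M.IsBase (insert e B) := max_TI

lemma trunc_base_sdiff (hB : M.IsBase B) {e : α} (he : e ∈ B) : (trunc M h0).IsBase (B \ {e}) :=
  trunc_base.2 ⟨e, fun a => a.2 rfl, by rwa [insert_sdiff_singleton, insert_eq_of_mem he]⟩

lemma near_trunc : Near 1 M (trunc M h0) := by
  refine ⟨fun I hI => ?_, fun I hI => ⟨∅, by simp, by simpa using hI.1⟩⟩
  by_cases hb : M.IsBase I
  · obtain ⟨e, he⟩ : I.Nonempty := nonempty_iff_ne_empty.2 fun a => h0 (a ▸ hb)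
    exact ⟨{e}, by simp, (trunc_base_sdiff hb he).indep⟩
  · exact ⟨∅, by simp, by rw [sdiff_empty]; exact ⟨hI, hb⟩⟩

lemma coindep_trunc (hI : M✶.Indep I) : (trunc M h0)✶.Indep I := by
  obtain ⟨hE, B, hB, hd⟩ := dual_indep_iff_exists'.1 hI
  obtain ⟨e, he⟩ : B.Nonempty := nonempty_iff_ne_empty.2 fun a => h0 (a ▸ hB)
  exact dual_indep_iff_exists'.2 ⟨hE, _, trunc_base_sdiff hB he, hd.mono_right sdiff_subset⟩

lemma near_trunc_dual : Near 1 M✶ (trunc M h0)✶ := by
  refine ⟨fun I hI => ⟨∅, by simp, by rw [sdiff_empty]; exact coindep_trunc hI⟩, fun I hI => ?_⟩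
  obtain ⟨hE, B, hB, hd⟩ := dual_indep_iff_exists'.1 hI
  obtain ⟨e, -, hb⟩ := trunc_base.1 hB
  refine ⟨{e}, by simp, dual_indep_iff_exists'.2 ⟨sdiff_subset.trans hE, _, hb, ?_⟩⟩
  exact Set.disjoint_left.2 fun x hx h => h.elim hx.2 (Set.disjoint_left.1 hd hx.1)

lemma Near.trans {a b : ℕ} {N K : Matroid α} (h1 : Near a M N) (h2 : Near b N K) :
    Near (a + b) M K := by
  constructor
  · intro I hI
    obtain ⟨F, hF, g1⟩ := h1.1 I hI
    obtain ⟨G, hG, g2⟩ := h2.1 _ g1
    exact ⟨F ∪ G, (encard_union_le _ _).trans (by push_cast; exact add_le_add hF hG),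
      by rwa [← sdiff_sdiff]⟩
  · intro I hI
    obtain ⟨G, hG, g2⟩ := h2.2 I hI
    obtain ⟨F, hF, g1⟩ := h1.2 _ g2
    exact ⟨F ∪ G, (encard_union_le _ _).trans (by push_cast; exact add_le_add hF hG),
      by rwa [union_comm, ← sdiff_sdiff]⟩

lemma near_refl (M : Matroid α) : Near 0 M M :=
  ⟨fun I hI => ⟨∅, by simp, by simpa⟩, fun I hI => ⟨∅, by simp, by simpa⟩⟩

/-- all finite sets are independent and coindependent -/
structure Free (M : Matroid α) : Prop where
  ground : M.E = univ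
  fin : ∀ D : Set α, D.Finite → M.Indep D
  cofin : ∀ D : Set α, D.Finite → M✶.Indep D

lemma Free.basis_infinite (h : Free M) (hB : M.IsBasis B X) (hX : X.Infinite) : B.Infinite := by
  intro hf
  obtain ⟨x, hx, hxB⟩ := (hX.sdiff hf).nonempty
  exact hxB (hB.mem_of_insert_indep hx (h.fin _ (hf.insert x)))

lemma Free.not_base [Infinite α] (h : Free M) (hB : B.Finite) : ¬ M.IsBase B := fun hb =>
  h.basis_infinite hb.isBasis_ground (h.ground ▸ infinite_univ) hB

lemma Free.trunc [Infinite α] (h : Free M) : Free (trunc M h0) :=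
  ⟨h.ground, fun D hD => ⟨h.fin D hD, h.not_base hD⟩, fun D hD => coindep_trunc (h.cofin D hD)⟩

lemma sdiff_le_of_base (hB : M.IsBase B) (hI : M.Indep I) : (I \ B).encard ≤ (B \ I).encard :=
  N068.encard_le_of_closure hI hB.indep (hB.closure_eq ▸ hI.subset_ground)

/-- no separation of order at most `k` has two infinite sides -/
def Far (M : Matroid α) (k : ℕ) : Prop :=
  ∀ X B B' F : Set α, X.Infinite → Xᶜ.Infinite → M.IsBasis B X → M.IsBasis B' Xᶜ →
    M.Indep ((B ∪ B') \ F) → (k : ℕ∞) ≤ F.encard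

lemma basis_of_trunc [Infinite α] (h : Free M) {B' F : Set α} (hX : Xᶜ.Infinite)
    (hB : (trunc M h0).IsBasis B X) (hB' : (trunc M h0).IsBasis B' Xᶜ) (hF : F.Finite)
    (hi : M.Indep ((B ∪ B') \ F)) : M.IsBasis B X := by
  have hXE : X ⊆ M.E := h.ground ▸ subset_univ _
  refine (isBasis_iff hXE).2 ⟨hB.indep.1, hB.subset, fun J hJ hBJ hJX => hBJ.antisymm ?_⟩
  intro e he
  by_contra heB
  have hie : M.Indep (insert e B) := hJ.subset (insert_subset he hBJ)
  have hb : M.IsBase (insert e B) :=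
    by_contra fun hn => heB (hB.mem_of_insert_indep (hJX he) ⟨hie, hn⟩)
  have h1 := sdiff_le_of_base hb hi
  have h2 : (insert e B \ ((B ∪ B') \ F)).Finite := (hF.insert e).subset (by
    rintro x ⟨hx | hx, hx'⟩
    · exact Or.inl hx
    · exact Or.inr (by_contra fun a => hx' ⟨Or.inl hx, a⟩))
  have h3 := h2.finite_of_encard_le h1
  refine ((h.trunc.basis_infinite hB' hX).sdiff hF) (h3.subset fun x hx => ?_)
  exact ⟨⟨Or.inr hx.1, hx.2⟩, fun a =>
    hB'.subset hx.1 (insert_subset (hJX he) hB.subset a)⟩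

lemma Far.trunc [Infinite α] {k : ℕ} (hk : Far M k) (h : Free M) : Far (trunc M h0) (k + 1) := by
  intro X B B' F hX hX' hB hB' hi
  rcases F.finite_or_infinite with hF | hF
  swap
  · rw [hF.encard_eq]
    exact le_top
  have g1 := basis_of_trunc h hX' hB hB' hF hi.1
  have g2 : M.IsBasis B' Xᶜ := basis_of_trunc (B' := B) h (by rwa [compl_compl]) hB'
    (by rwa [compl_compl]) hF (by rw [union_comm]; exact hi.1)
  have hsp : M.E ⊆ M.closure (B ∪ B') := by
    intro x _
    by_cases hx : x ∈ X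
    · exact M.closure_subset_closure subset_union_left (g1.subset_closure hx)
    · exact M.closure_subset_closure subset_union_right (g2.subset_closure hx)
  obtain ⟨x, hx, hxc⟩ : ∃ x ∈ B ∪ B', x ∉ M.closure ((B ∪ B') \ F) := by
    by_contra hc
    push Not at hc
    exact hi.2 (hi.1.isBase_of_ground_subset_closure
      (hsp.trans (M.closure_subset_closure_of_subset_closure hc)))
  have hxn : x ∉ (B ∪ B') \ F := fun a => hxc (M.subset_closure _ hi.1.subset_ground a)
  have hxF : x ∈ F := by_contra fun a => hxn ⟨hx, a⟩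
  have hins := (hi.1.insert_indep_iff_of_notMem hxn).2 ⟨h.ground ▸ mem_univ x, hxc⟩
  have h1 := hk X B B' (F \ {x}) hX hX' g1 g2 (hins.subset fun y hy => by
    by_cases a : y = x
    · exact Or.inl a
    · exact Or.inr ⟨hy.1, fun b => hy.2 ⟨b, a⟩⟩)
  rw [← encard_sdiff_singleton_add_one hxF]
  push_cast
  gcongr

theorem exists_trunc [Infinite α] (h : Free M) (k : ℕ) :
    ∃ N : Matroid α, Free N ∧ Far N k ∧ Near k M N ∧ Near k M✶ N✶ := by
  induction k with
  | zero => exact ⟨M, h, fun _ _ _ _ _ _ _ _ _ => by simp, near_refl _, near_refl _⟩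
  | succ k ih =>
    obtain ⟨N, g1, g2, g3, g4⟩ := ih
    exact ⟨trunc N (g1.not_base finite_empty), g1.trunc, g2.trunc g1, g3.trans near_trunc,
      g4.trans near_trunc_dual⟩

lemma Free.le_of_finite (h : Free M) {B' F : Set α} (hX : X.Finite) (hB : M.IsBasis B X)
    (hB' : M.IsBasis B' Xᶜ) (hi : M.Indep ((B ∪ B') \ F)) : X.encard ≤ F.encard := by
  obtain rfl : B = X := hB.eq_of_subset_indep (h.fin X hX) hB.subset subset_rfl
  have hsp : M.Spanning Bᶜ := by
    have := (show M.Coindep B from h.cofin B hX).compl_spanning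
    rwa [h.ground, ← compl_eq_univ_sdiff] at this
  have hb : M.IsBase B' := hB'.indep.isBase_of_ground_subset_closure
    (by rw [hB'.closure_eq_closure, hsp.closure_eq])
  have h1 := sdiff_le_of_base hb hi
  have h2 : B \ F ⊆ ((B ∪ B') \ F) \ B' := fun x hx =>
    ⟨⟨Or.inl hx.1, hx.2⟩, fun a => hB'.subset a hx.1⟩
  have h3 : B' \ ((B ∪ B') \ F) ⊆ F \ B := fun x hx =>
    ⟨by_contra fun a => hx.2 ⟨Or.inr hx.1, a⟩, hB'.subset hx.1⟩
  rw [← encard_sdiff_add_encard_inter B F, ← encard_sdiff_add_encard_inter F B, inter_comm F B]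
  exact add_le_add ((encard_le_encard h2).trans (h1.trans (encard_le_encard h3))) le_rfl

theorem Free.tight {k : ℕ} (h : Free M) (hk : Far M k) : Tight M k := by
  constructor
  · rintro l hl X ⟨-, h1, h2, B, B', F, hB, hB', hF, hi⟩
    rw [h.ground, ← compl_eq_univ_sdiff] at h2 hB'
    refine absurd hF (not_lt.2 ?_)
    rcases X.finite_or_infinite with hX | hX
    · exact h1.trans (h.le_of_finite hX hB hB' hi)
    rcases Xᶜ.finite_or_infinite with hX' | hX'
    · exact h2.trans (h.le_of_finite (B' := B) hX' hB' (by rwa [compl_compl])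
        (by rwa [union_comm]))
    · exact le_trans (by exact_mod_cast hl.le) (hk X B B' F hX hX' hB hB' hi)
  · rintro C (hC | hC) hf
    · exact hC.not_indep (h.fin C hf)
    · exact hC.not_indep (h.cofin C hf)

end Vale.Agent.N068B
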